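import Vale.Agent.P200.Quadrics

namespace Vale.Agent.Results.P200.QuadricGrowth

open MvPolynomial Module Vale.Agent.P200

universe u

theorem result :
    ∀ (K : Type u) [Field K] (n : ℕ) (f : Fin n → MvPolynomial (Fin n) K),
      (∀ i, f i ∈ homogeneousSubmodule (Fin n) K 2) →
      RingTheory.Sequence.IsWeaklyRegular (MvPolynomial (Fin n) K) (List.ofFn f) →
      ∀ I : Ideal (MvPolynomial (Fin n) K), (∀ i, f i ∈ I) →
        3 * ((finrank K (homogeneousSubmodule (Fin n) K 3) -
              finrank K ↑(homogeneousSubmodule (Fin n) K 3 ⊓ I.restrictScalars K) : ℕ) : ℝ) ≤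
          √(2 * ((finrank K (homogeneousSubmodule (Fin n) K 2) -
              finrank K ↑(homogeneousSubmodule (Fin n) K 2 ⊓ I.restrictScalars K) : ℕ) : ℝ)) *
            (((finrank K (homogeneousSubmodule (Fin n) K 2) -
              finrank K ↑(homogeneousSubmodule (Fin n) K 2 ⊓ I.restrictScalars K) : ℕ) : ℝ) + 3) := by
  intro K _ n f hf hreg I hI
  refine degree_three_bound hreg hf _ (homogeneousSubmodule (Fin n) K 2 ⊓ I.restrictScalars K)
    (homogeneousSubmodule (Fin n) K 3 ⊓ I.restrictScalars K) inf_le_left inf_le_left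
    (fun i => ⟨hf i, hI i⟩) (fun v hv x hx => ⟨mul_mem_homogeneous hv hx.1, ?_⟩) rfl
  exact Ideal.mul_mem_left I v hx.2

end Vale.Agent.Results.P200.QuadricGrowth
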