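import Vale.Agent.P200.SmallH2.Dual

namespace Vale.Agent.Results.P200.QuadricsSmallH2

open MvPolynomial Module Vale.Agent.P200.SmallH2

universe u

theorem result :
    ∀ (K : Type u) [Field K] (n : ℕ) (f : Fin n → MvPolynomial (Fin n) K),
      (∀ i, f i ∈ homogeneousSubmodule (Fin n) K 2) →
      RingTheory.Sequence.IsWeaklyRegular (MvPolynomial (Fin n) K) (List.ofFn f) →
      ∀ I : Ideal (MvPolynomial (Fin n) K), (∀ i, f i ∈ I) →
        (finrank K (homogeneousSubmodule (Fin n) K 2) -
            finrank K ↑(homogeneousSubmodule (Fin n) K 2 ⊓ I.restrictScalars K) ≤ 10 ∨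
          n.choose 2 ≤ finrank K (homogeneousSubmodule (Fin n) K (n - 2)) -
            finrank K ↑(homogeneousSubmodule (Fin n) K (n - 2) ⊓ I.restrictScalars K) + 10) →
        ∃ J : Ideal (MvPolynomial (Fin n) K),
          (∃ G : Set (Fin n →₀ ℕ), J = Ideal.span ((fun s => monomial s (1 : K)) '' G)) ∧
          (∀ i, X i ^ 2 ∈ J) ∧
          ∀ d, finrank K ↑(homogeneousSubmodule (Fin n) K d ⊓ J.restrictScalars K) =
            finrank K ↑(homogeneousSubmodule (Fin n) K d ⊓ I.restrictScalars K) := by
  intro K _ n f hf hreg I hI h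
  let Q : GI K n :=
    { piece := fun d => homogeneousSubmodule (Fin n) K d ⊓ I.restrictScalars K
      le := fun _ => inf_le_left
      mul_mem := fun {d v x} hv hx => ⟨by
          rw [add_comm]
          exact Vale.Agent.P200.mul_mem_homogeneous hv hx.1, I.mul_mem_left v hx.2⟩ }
  exact exists_monomial_ideal Q (Q.hasComplex (f := f) (fun i => ⟨hf i, hI i⟩) hreg h)

end Vale.Agent.Results.P200.QuadricsSmallH2
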