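import Vale.Agent.P200.Ternary.Model

namespace Vale.Agent.Results.P200.ThreeFormsThreeVariables

open MvPolynomial Module Vale.Agent.P200.SmallH2 Vale.Agent.P200.Ternary

universe u

theorem result :
    ∀ (K : Type u) [Field K] (a b c : ℕ), a ≤ b → b ≤ c → c + 3 ≤ a + b → a + b ≤ c + 4 →
      ∀ f : Fin 3 → MvPolynomial (Fin 3) K,
      f 0 ∈ homogeneousSubmodule (Fin 3) K a → f 1 ∈ homogeneousSubmodule (Fin 3) K b →
      f 2 ∈ homogeneousSubmodule (Fin 3) K c →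
      RingTheory.Sequence.IsWeaklyRegular (MvPolynomial (Fin 3) K) (List.ofFn f) →
      ∀ I : Ideal (MvPolynomial (Fin 3) K), (∀ i, f i ∈ I) →
        ∃ J : Ideal (MvPolynomial (Fin 3) K),
          (∃ G : Set (Fin 3 →₀ ℕ), J = Ideal.span ((fun s => monomial s (1 : K)) '' G)) ∧
          (X 0 ^ a ∈ J ∧ X 1 ^ b ∈ J ∧ X 2 ^ c ∈ J) ∧
          ∀ d, finrank K ↑(homogeneousSubmodule (Fin 3) K d ⊓ J.restrictScalars K) =
            finrank K ↑(homogeneousSubmodule (Fin 3) K d ⊓ I.restrictScalars K) := by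
  intro K _ a b c hab hbc h3 h4 f h₁ h₂ h₃ hreg I hI
  let Q : GI K 3 :=
    { piece := fun d => homogeneousSubmodule (Fin 3) K d ⊓ I.restrictScalars K
      le := fun _ => inf_le_left
      mul_mem := fun {d v x} hv hx => ⟨by
          rw [add_comm]
          exact Vale.Agent.P200.mul_mem_homogeneous hv hx.1, I.mul_mem_left v hx.2⟩ }
  obtain ⟨F, hF1, hF2, hF3⟩ := exists_model Q h3 h4 hab hbc
    (show f 0 ∈ Q.piece a from ⟨h₁, hI 0⟩) (show f 1 ∈ Q.piece b from ⟨h₂, hI 1⟩)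
    (show f 2 ∈ Q.piece c from ⟨h₃, hI 2⟩) hreg
  exact exists_ideal Q F hF1 hF2 hF3

end Vale.Agent.Results.P200.ThreeFormsThreeVariables
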